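import Vale.Agent.P273SA.Rows
import Mathlib.RingTheory.Complex
import Mathlib.RingTheory.Norm.Transitivity
import Mathlib.MeasureTheory.Measure.Haar.Unique

/-!
# P273S: the real coordinates of `ℂ^m`
-/

noncomputable section

namespace Vale.Agent.P273SR

open Set Filter Topology MeasureTheory Vale.Agent.P223 Vale.Agent.P223.H Vale.Agent.P273SA
open scoped ContDiff

variable {m : ℕ}

/-- The inverse of `kap`. -/
def kinv (m : ℕ) (z : Cm m) : E (m * 2) := fun a =>
  if a.modNat = 0 then (z a.divNat).re else (z a.divNat).im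

theorem div_fp (j : Fin m) (b : Fin 2) : (finProdFinEquiv (j, b)).divNat = j :=
  congrArg Prod.fst (finProdFinEquiv.symm_apply_apply (j, b))

theorem mod_fp (j : Fin m) (b : Fin 2) : (finProdFinEquiv (j, b)).modNat = b :=
  congrArg Prod.snd (finProdFinEquiv.symm_apply_apply (j, b))

theorem fp_div_mod (a : Fin (m * 2)) : finProdFinEquiv (a.divNat, a.modNat) = a :=
  finProdFinEquiv.apply_symm_apply a

theorem kap_re (y : E (m * 2)) (j : Fin m) : (kap m y j).re = y (finProdFinEquiv (j, 0)) := by
  simp [kap]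

theorem kap_im (y : E (m * 2)) (j : Fin m) : (kap m y j).im = y (finProdFinEquiv (j, 1)) := by
  simp [kap]

theorem kap_kinv (z : Cm m) : kap m (kinv m z) = z := by
  funext j
  apply Complex.ext
  · rw [kap_re, kinv, mod_fp, div_fp, if_pos rfl]
  · rw [kap_im, kinv, mod_fp, div_fp, if_neg (by decide)]

theorem kinv_kap (y : E (m * 2)) : kinv m (kap m y) = y := by
  funext a
  unfold kinv
  split_ifs with h
  · rw [kap_re, ← h, fp_div_mod]
  · have h1 : a.modNat = 1 := by omega
    rw [kap_im, ← h1, fp_div_mod]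

/-- `kap` as a real linear isomorphism. -/
def kapL (m : ℕ) : E (m * 2) ≃L[ℝ] Cm m :=
  LinearEquiv.toContinuousLinearEquiv
    { toFun := kap m
      map_add' := fun x y => by
        funext j
        simp only [kap, Pi.add_apply]
        push_cast
        ring
      map_smul' := fun c x => by
        funext j
        simp only [kap, Pi.smul_apply, smul_eq_mul, RingHom.id_apply, Complex.real_smul]
        push_cast
        ring
      invFun := kinv m
      left_inv := kinv_kap
      right_inv := kap_kinv }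

theorem kapL_apply (y : E (m * 2)) : kapL m y = kap m y := rfl

theorem kapL_symm_apply (z : Cm m) : (kapL m).symm z = kinv m z := rfl

theorem coe_kapL : ⇑(kapL m) = kap m := rfl

theorem kinv_bas (a : Fin (m * 2)) : kinv m (bas m a) = Pi.single a 1 := by
  funext b
  unfold kinv bas
  by_cases hd : b.divNat = a.divNat
  · rw [hd, Pi.single_eq_same]
    by_cases hm : b.modNat = a.modNat
    · have hb : b = a := by rw [← fp_div_mod b, hd, hm, fp_div_mod]
      rw [hb, Pi.single_eq_same]
      split_ifs <;> simp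
    · have hb : b ≠ a := fun e => hm (by rw [e])
      rw [Pi.single_eq_of_ne hb]
      by_cases h0 : a.modNat = 0
      · rw [if_pos h0, if_neg (by rw [← h0]; exact hm)]
        simp
      · have h1 : b.modNat = 0 := by omega
        rw [if_neg h0, if_pos h1]
        simp
  · have hb : b ≠ a := fun e => hd (by rw [e])
    rw [Pi.single_eq_of_ne hd, Pi.single_eq_of_ne hb]
    simp

theorem kap_single (a : Fin (m * 2)) : kap m (Pi.single a 1) = bas m a := by
  rw [← kinv_bas, kap_kinv]

/-- `kap` preserves the volume. -/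
theorem measurePreserving_kap (m : ℕ) : MeasurePreserving (kap m) volume volume := by
  have hm : Measurable (kap m) := (kapL m).continuous.measurable
  refine ⟨hm, ?_⟩
  have hH : Measure.IsAddHaarMeasure (Measure.map (kapL m) (volume : Measure (E (m * 2)))) :=
    (kapL m).isAddHaarMeasure_map _
  have h1 := Measure.isAddLeftInvariant_eq_smul
    (Measure.map (kapL m) (volume : Measure (E (m * 2)))) (volume : Measure (Cm m))
  set Q : Set ℂ := Complex.measurableEquivRealProd ⁻¹' (Ico (0 : ℝ) 1 ×ˢ Ico (0 : ℝ) 1) with hQ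
  have hQm : MeasurableSet Q :=
    Complex.measurableEquivRealProd.measurable (measurableSet_Ico.prod measurableSet_Ico)
  have hQ1 : volume Q = 1 := by
    rw [hQ, Complex.volume_preserving_equiv_real_prod.measure_preimage
      (measurableSet_Ico.prod measurableSet_Ico).nullMeasurableSet, Measure.volume_eq_prod,
      Measure.prod_prod]
    simp
  have h2 : volume (univ.pi fun _ : Fin m => Q) = 1 := by
    rw [volume_pi_pi]
    simp [hQ1]
  have h3 : kapL m ⁻¹' (univ.pi fun _ : Fin m => Q) = univ.pi fun _ => Ico (0 : ℝ) 1 := by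
    ext y
    simp only [mem_preimage, Set.mem_pi, mem_univ, true_imp_iff, hQ, Set.mem_prod,
      Complex.measurableEquivRealProd_apply, kapL_apply, kap_re, kap_im]
    constructor
    · intro h a
      rw [← fp_div_mod a]
      by_cases h0 : a.modNat = 0
      · rw [h0]
        exact (h _).1
      · have h1 : a.modNat = 1 := by omega
        rw [h1]
        exact (h _).2
    · exact fun h j => ⟨h _, h _⟩
  have h4 := congrArg (fun μ : Measure (Cm m) => μ (univ.pi fun _ : Fin m => Q)) h1
  simp only [Measure.smul_apply] at h4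
  rw [Measure.map_apply (kapL m).continuous.measurable (MeasurableSet.univ_pi fun _ => hQm), h3, h2,
    volume_pi_pi] at h4
  simp only [Real.volume_Ico, sub_zero, ENNReal.ofReal_one, Finset.prod_const_one,
    ENNReal.smul_def, smul_eq_mul, mul_one] at h4
  rw [← coe_kapL, h1, ENNReal.smul_def, ← h4, one_smul]

/-- A complex linear map in the real coordinates. -/
def realM (L : Cm m →L[ℂ] Cm m) : E (m * 2) →L[ℝ] E (m * 2) :=
  ((kapL m).symm : Cm m →L[ℝ] E (m * 2)).comp
    ((L.restrictScalars ℝ).comp (kapL m : E (m * 2) →L[ℝ] Cm m))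

theorem det_restrict (L : Cm m →L[ℂ] Cm m) :
    (L.restrictScalars ℝ).det = Complex.normSq L.det := by
  rw [← Algebra.norm_complex_apply]
  exact LinearMap.det_restrictScalars (R := ℝ) (S := ℂ) (f := (L : Cm m →ₗ[ℂ] Cm m))

theorem det_realM (L : Cm m →L[ℂ] Cm m) : (realM L).det = Complex.normSq L.det := by
  rw [← det_restrict]
  exact LinearMap.det_conj ((L.restrictScalars ℝ : Cm m →L[ℝ] Cm m) : Cm m →ₗ[ℝ] Cm m)
    (kapL m).symm.toLinearEquiv

section charts

variable {N : Type} [TopologicalSpace N]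

/-- The real chart of a complex chart. -/
def rc (e : OpenPartialHomeomorph N (Cm m)) : J.Ch (m * 2) N :=
  e.transHomeomorph (kapL m).symm.toHomeomorph

theorem rc_source (e : OpenPartialHomeomorph N (Cm m)) : (rc e).source = e.source := rfl

theorem rc_target (e : OpenPartialHomeomorph N (Cm m)) : (rc e).target = kap m ⁻¹' e.target := rfl

theorem rc_apply (e : OpenPartialHomeomorph N (Cm m)) (x : N) : rc e x = kinv m (e x) := rfl

theorem rc_symm (e : OpenPartialHomeomorph N (Cm m)) (y : E (m * 2)) :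
    (rc e).symm y = e.symm (kap m y) := rfl

theorem kap_rc (e : OpenPartialHomeomorph N (Cm m)) (x : N) : kap m (rc e x) = e x := kap_kinv _

/-- The complex Jacobian of a holomorphic change of charts is not zero. -/
theorem det_ne {𝒜 : Set (OpenPartialHomeomorph N (Cm m))} (h : CAtl 𝒜)
    {e e' : OpenPartialHomeomorph N (Cm m)} (he : e ∈ 𝒜) (he' : e' ∈ 𝒜) {x : N}
    (hx : x ∈ e.source) (hx' : x ∈ e'.source) :
    (fderiv ℂ (fun y => e' (e.symm y)) (e x)).det ≠ 0 := by
  have h1 := (h.an e he e' he' x hx hx').differentiableAt.hasFDerivAt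
  have h2 := (h.an e' he' e he x hx' hx).differentiableAt.hasFDerivAt
  rw [show e' x = e' (e.symm (e x)) by rw [e.left_inv hx]] at h2
  have h3 := h2.comp (e x) h1
  have h4 : (fun y => e (e'.symm y)) ∘ (fun y => e' (e.symm y)) =ᶠ[𝓝 (e x)] id := by
    have h5 : ContinuousAt e.symm (e x) := e.continuousAt_symm (e.map_source hx)
    have h6 : ∀ᶠ y in 𝓝 (e x), e.symm y ∈ e'.source :=
      h5.preimage_mem_nhds (by rw [e.left_inv hx]; exact e'.open_source.mem_nhds hx')
    filter_upwards [h6, e.open_target.mem_nhds (e.map_source hx)] with y h7 h8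
    change e (e'.symm (e' (e.symm y))) = y
    rw [e'.left_inv h7, e.right_inv h8]
  have h5 := congrArg ContinuousLinearMap.det
    ((h3.congr_of_eventuallyEq h4.symm).unique (hasFDerivAt_id (e x)))
  have h6 : (ContinuousLinearMap.id ℂ (Cm m)).det = 1 := LinearMap.det_id
  have h7 : ∀ A B : Cm m →L[ℂ] Cm m, (A.comp B).det = A.det * B.det := fun _ _ =>
    LinearMap.det_comp _ _
  rw [h6, h7] at h5
  exact right_ne_zero_of_mul_eq_one h5

theorem hasFDerivAt_cm {e e' : OpenPartialHomeomorph N (Cm m)} {x : N} {L : Cm m →L[ℂ] Cm m}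
    (h : HasFDerivAt (fun y => e' (e.symm y)) L (e x)) :
    HasFDerivAt (J.cm (rc e) (rc e')) (realM L) (rc e x) := by
  have h1 := h.restrictScalars ℝ
  rw [← kap_rc e x, ← kapL_apply] at h1
  exact (kapL m).symm.hasFDerivAt.comp (rc e x) (h1.comp (rc e x) (kapL m).hasFDerivAt)

/-- Holomorphic changes of charts are smooth and preserve the orientation. -/
theorem comp_rc {𝒜 : Set (OpenPartialHomeomorph N (Cm m))} (h : CAtl 𝒜)
    {e e' : OpenPartialHomeomorph N (Cm m)} (he : e ∈ 𝒜) (he' : e' ∈ 𝒜) :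
    J.Comp (rc e) (rc e') := by
  intro x hx hx'
  have h1 := h.an e he e' he' x hx hx'
  constructor
  · have h2 : ContDiffAt ℝ ∞ (fun y => e' (e.symm y)) (kapL m (rc e x)) := by
      rw [kapL_apply, kap_rc]
      exact (h1.contDiffAt (n := ∞)).restrict_scalars ℝ
    exact (kapL m).symm.contDiff.contDiffAt.comp (rc e x)
      (h2.comp (rc e x) (kapL m).contDiff.contDiffAt)
  · rw [(hasFDerivAt_cm h1.differentiableAt.hasFDerivAt).fderiv, det_realM]
    exact Complex.normSq_pos.2 (det_ne h he he' hx hx')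

theorem ratl {𝒜 : Set (OpenPartialHomeomorph N (Cm m))} (h : CAtl 𝒜) :
    RAtl fun e : 𝒜 => rc e.1 where
  cover x := by
    obtain ⟨e, he, hx⟩ := h.cover x
    exact ⟨⟨e, he⟩, hx⟩
  cmp i j := comp_rc h i.2 j.2

theorem fullR {𝒜 : Set (OpenPartialHomeomorph N (Cm m))} {e₀ : 𝒜} (h : Full 𝒜 e₀.1) :
    FullR (fun e : 𝒜 => rc e.1) e₀ := by
  intro e
  refine measure_mono_null ?_
    ((measurePreserving_kap m).quasiMeasurePreserving.preimage_null (h e.1 e.2))
  rintro _ ⟨x, hx, rfl⟩
  exact ⟨x, hx, (kap_rc e.1 x).symm⟩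

theorem smR {𝒜 : Set (OpenPartialHomeomorph N (Cm m))} {g : N → ℝ} (h : SmC 𝒜 g) :
    SmR (fun e : 𝒜 => rc e.1) g := fun e =>
  ((h e.1 e.2).of_le (by simp)).comp (kapL m).contDiff.contDiffOn fun _ hy => hy

theorem ig_rc (e : OpenPartialHomeomorph N (Cm m)) (g : Fin (m * 2 + 1) → N → ℝ) :
    ig (rc e) g = fun y => (fun z => g 0 (e.symm z) * (Matrix.of fun k a =>
      fderiv ℝ (fun y => g (Fin.succ k) (e.symm y)) z (bas m a)).det) (kap m y) := by
  funext y
  unfold ig jdet pd
  congr 2
  ext k a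
  have h := (kapL m).comp_right_fderiv (f := fun z => g (Fin.succ k) (e.symm z)) (x := y)
  simp only [Matrix.of_apply]
  rw [← kap_single]
  exact congrArg (fun L : E (m * 2) →L[ℝ] ℝ => L (Pi.single a 1)) h

theorem emb_kap (m : ℕ) : MeasurableEmbedding (kap m) :=
  (kapL m).toHomeomorph.measurableEmbedding

end charts

/-- **KAP**. -/
theorem kap_row : KAP := by
  intro hF
  refine ⟨fun m N _ _ _ 𝒜 hm hA _ => ?_, fun m N _ _ _ 𝒜 hm hA e₀ he₀ hf g hg => ?_⟩
  · obtain ⟨-, z, h1, h2, h3⟩ := hF (m * 2) N 𝒜 (fun e => rc e.1) (by omega) (ratl hA)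
    refine ⟨z, h1, fun e he p hp => ?_, fun e₀ he₀ hf => ?_⟩
    · obtain ⟨w, A, s, b, c, k1, k2, k3⟩ := h2 ⟨e, he⟩ p hp
      refine ⟨w, A, s, b, c, k1, fun t => ⟨(k2 t).1, ?_⟩, k3⟩
      rw [← kap_rc e (s t)]
      exact congrArg (kap m) (k2 t).2
    · intro ι _ g hg
      have h4 := h3 ⟨e₀, he₀⟩ (fullR (e₀ := ⟨e₀, he₀⟩) hf) ι g fun i => smR (hg i)
      have h5 : (fun g => ∫ y in (rc e₀).target, ig (rc e₀) g y) = IntC e₀ := by
        funext g
        rw [ig_rc, rc_target]
        exact (measurePreserving_kap m).setIntegral_preimage_emb (emb_kap m) _ _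
      rw [← h5]
      exact h4
  · have h1 := (hF (m * 2) N 𝒜 (fun e => rc e.1) (by omega) (ratl hA)).1 ⟨e₀, he₀⟩
      (fullR (e₀ := ⟨e₀, he₀⟩) hf) g fun k => smR (hg k)
    simp only [ig_rc, rc_target] at h1
    exact ((measurePreserving_kap m).integrableOn_comp_preimage (emb_kap m)).1 h1

end Vale.Agent.P273SR

end
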