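import Vale.Agent.P273SW.UAn

/-!
# P273S, row PSI: the local inverse of the product of three coprime quadratic factors
-/

noncomputable section

namespace Vale.Agent.P273SR

open Set Filter Topology Vale.Agent.P273 H95 Vale.Agent.P273SW Polynomial
open Vale.Agent.P273.H681 (C6)

theorem an_Psi0 (c : (Fin 3 → ℂ) × (Fin 3 → ℂ)) : AnalyticAt ℂ Psi c :=
  an_Psi (e := fun q : (Fin 3 → ℂ) × (Fin 3 → ℂ) => q.1) (ε := fun q => q.2)
    (fun k => ((ContinuousLinearMap.proj (R := ℂ) (φ := fun _ : Fin 3 => ℂ) k).comp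
      (ContinuousLinearMap.fst ℂ (Fin 3 → ℂ) (Fin 3 → ℂ))).analyticAt c)
    fun k => ((ContinuousLinearMap.proj (R := ℂ) (φ := fun _ : Fin 3 => ℂ) k).comp
      (ContinuousLinearMap.snd ℂ (Fin 3 → ℂ) (Fin 3 → ℂ))).analyticAt c

/-- The variation of one factor. -/
def vr (c d : (Fin 3 → ℂ) × (Fin 3 → ℂ)) (k : Fin 3) : ℂ[X] :=
  C (-2 * d.1 k) * X + C (2 * d.1 k * c.1 k - d.2 k)

theorem sum_vr {c d : (Fin 3 → ℂ) × (Fin 3 → ℂ)} (hd : fderiv ℂ Psi c d = 0) :
    ∑ k, (∏ l ∈ Finset.univ.erase k, qf c l) * vr c d k = 0 := by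
  have hl : HasDerivAt (fun t : ℂ => c + t • d) d 0 := by
    simpa using ((hasDerivAt_id (0 : ℂ)).smul_const d).const_add c
  have h1 : HasDerivAt (fun t : ℂ => Psi (c + t • d)) (fderiv ℂ Psi c d) 0 :=
    (an_Psi0 c).differentiableAt.hasFDerivAt.comp_hasDerivAt_of_eq 0 hl (by simp)
  rw [hd] at h1
  refine Polynomial.funext fun x => ?_
  have h2 : HasDerivAt (fun t : ℂ => sx (Psi (c + t • d)) x) 0 0 := by
    unfold sx
    have h3 := (HasDerivAt.fun_sum (u := Finset.univ) fun (i : Fin 6) _ =>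
      (hasDerivAt_pi.1 h1 i).mul_const (x ^ (i : ℕ))).const_add (x ^ 6)
    simpa using h3
  have h4 : ∀ k, HasDerivAt (fun t : ℂ => (x - (c + t • d).1 k) ^ 2 - (c + t • d).2 k)
      ((vr c d k).eval x) 0 := by
    intro k
    have h5 : HasDerivAt (fun t : ℂ => x - (c.1 k + t * d.1 k)) (-d.1 k) 0 := by
      simpa using (((hasDerivAt_id (0 : ℂ)).mul_const (d.1 k)).const_add (c.1 k)).const_sub x
    have h6 : HasDerivAt (fun t : ℂ => c.2 k + t * d.2 k) (d.2 k) 0 := by
      simpa using ((hasDerivAt_id (0 : ℂ)).mul_const (d.2 k)).const_add (c.2 k)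
    refine ((h5.fun_pow 2).fun_sub h6).congr_deriv ?_
    simp [vr]
    ring
  have h7 := HasDerivAt.fun_finsetProd (u := Finset.univ) fun k _ => h4 k
  simp only [← sx_Psi] at h7
  have h8 := h7.unique h2
  rw [eval_zero, ← h8, eval_finsetSum]
  refine Finset.sum_congr rfl fun k _ => ?_
  rw [eval_mul, eval_prod, smul_eq_mul]
  simp [eval_qf]

theorem fd_inj {c : (Fin 3 → ℂ) × (Fin 3 → ℂ)} (h : Cop c) :
    Function.Injective (fderiv ℂ Psi c) := by
  rw [injective_iff_map_eq_zero]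
  intro d hd
  have h1 := sum_vr hd
  have key : ∀ k, vr c d k = 0 := by
    intro k
    have h2 : IsCoprime (qf c k) (∏ l ∈ Finset.univ.erase k, qf c l) := by
      refine IsCoprime.prod_right fun l hl => ?_
      exact H375.coprime_quad
        (sub_ne_zero.1 ((cop_iff c).1 h k l (Finset.ne_of_mem_erase hl).symm))
    have h3 : qf c k ∣ (∏ l ∈ Finset.univ.erase k, qf c l) * vr c d k := by
      rw [← Finset.add_sum_erase _ _ (Finset.mem_univ k)] at h1
      rw [eq_neg_of_add_eq_zero_left h1, dvd_neg]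
      refine Finset.dvd_sum fun m hm => Dvd.dvd.mul_right ?_ _
      exact Finset.dvd_prod_of_mem _
        (Finset.mem_erase.2 ⟨(Finset.ne_of_mem_erase hm).symm, Finset.mem_univ k⟩)
    refine eq_zero_of_dvd_of_natDegree_lt (h2.dvd_of_dvd_mul_left h3) ?_
    rw [(qf_monic c k).2]
    exact lt_of_le_of_lt natDegree_linear_le one_lt_two
  have h5 : ∀ k, d.1 k = 0 ∧ d.2 k = 0 := by
    intro k
    have h6 := congrArg (eval (c.1 k)) (key k)
    have h7 := congrArg (eval (c.1 k + 1)) (key k)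
    simp only [vr, eval_add, eval_mul, eval_C, eval_X, eval_zero] at h6 h7
    constructor
    · linear_combination (h6 - h7) / 2
    · linear_combination -h6
  exact Prod.ext (funext fun k => (h5 k).1) (funext fun k => (h5 k).2)

/-- **PSI**. -/
theorem psi : PSI := by
  intro c h
  have hd : Module.finrank ℂ ((Fin 3 → ℂ) × (Fin 3 → ℂ)) = Module.finrank ℂ C6 := by simp
  let e : ((Fin 3 → ℂ) × (Fin 3 → ℂ)) ≃L[ℂ] C6 :=
    (LinearMap.linearEquivOfInjective (fderiv ℂ Psi c).toLinearMap (fd_inj h)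
      hd).toContinuousLinearEquiv
  have hs : HasStrictFDerivAt Psi (e : ((Fin 3 → ℂ) × (Fin 3 → ℂ)) →L[ℂ] C6) c := by
    have h1 : (e : ((Fin 3 → ℂ) × (Fin 3 → ℂ)) →L[ℂ] C6) = fderiv ℂ Psi c :=
      ContinuousLinearMap.ext fun _ => rfl
    rw [h1]
    exact (an_Psi0 c).hasStrictFDerivAt
  refine ⟨(hs.toOpenPartialHomeomorph Psi).target, (hs.toOpenPartialHomeomorph Psi).symm,
    (hs.toOpenPartialHomeomorph Psi).open_target, hs.image_mem_toOpenPartialHomeomorph_target,
    (hs.toOpenPartialHomeomorph Psi).continuousOn_symm,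
    (hs.toOpenPartialHomeomorph Psi).left_inv hs.mem_toOpenPartialHomeomorph_source,
    fun a ha => (hs.toOpenPartialHomeomorph Psi).right_inv ha, hs.eventually_left_inverse⟩

end Vale.Agent.P273SR

end
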