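import Vale.Agent.P273SW.Defs

/-!
# P273S, rows PR and PV: the extension of the embedding to the regions with three necks

The chart with free centres based at `(p, ctr)` restricts to the region.
-/

noncomputable section

namespace Vale.Agent.P273SR

open Set Filter Topology Vale.Agent.P273 H95 Vale.Agent.P273SW
open Vale.Agent.P273.H888 (Dist Far)
open scoped ContDiff

/-- The square roots at the base point. -/
def gB (R : Region) (S : L → Bool) (p : R.Sp) (j : L) : ℂ :=
  (R.pl j).elim (fun k => gk (R.eps p) k (R.pos p j)) fun _ => R.sht S p j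

/-- The chart based at a point of the region. -/
abbrev DB (R : Region) (S : L → Bool) (p : R.Sp) : UD := ⟨R, S, (p, ctr), gB R S p⟩

variable {R : Region} {S : L → Bool} {p : R.Sp}

theorem posU_th (p : R.Sp) : posU R (p, ctr) = R.pos p := by
  funext j
  unfold posU
  rcases R.pl j with k | s <;> simp

theorem aU_th (p : R.Sp) : aU R (p, ctr) = thA (R.eps p) := rfl

theorem psiU_th (p : R.Sp) : psiU R (p, ctr) = R.psi p := by
  unfold psiU Region.psi
  rw [posU_th, aU_th]

theorem prod_three (f : Fin 3 → ℂ) (k : Fin 3) :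
    ∏ l : Fin 3, (if l = k then 1 else f l) = f (k + 1) * f (k + 2) := by
  fin_cases k
  · simp [Fin.prod_univ_three]
  · simp [Fin.prod_univ_three, mul_comm]
  · simp [Fin.prod_univ_three]

theorem gk_QU (h : p ∈ R.dom S) {j : L} {k : Fin 3} (hj : R.pl j = Sum.inl k) :
    gk (R.eps p) k (R.pos p j) ^ 2 = QU R (p, ctr) k (R.pos p j) := by
  rw [H724.gk_sq (H724.neck_sub_ne h hj),
    prod_three (fun l => (R.pos p j - ctr l) ^ 2 - R.eps p l) k]
  rfl

theorem gB_neck {j : L} {k : Fin 3} (hj : R.pl j = Sum.inl k) :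
    gB R S p j = gk (R.eps p) k (R.pos p j) := by
  unfold gB
  rw [hj]
  rfl

theorem gB_core {j : L} {s : Bool} (hj : R.pl j = Sum.inr s) : gB R S p j = R.sht S p j := by
  unfold gB
  rw [hj]
  rfl

theorem gB_ne (h : p ∈ R.dom S) (j : L) : gB R S p j ≠ 0 := by
  rcases hj : R.pl j with k | s
  · rw [gB_neck hj]
    exact H724.gk_pos_ne h hj
  · rw [gB_core hj]
    exact H724.sht_core_ne h hj

/-- A continuous function is the branch of the root of its square. -/
theorem branch {X : Type*} [TopologicalSpace X] {f : X → ℂ} {x : X} (hf : ContinuousAt f x)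
    (h0 : f x ≠ 0) : ∀ᶠ y in 𝓝 x, f y = f x * csq (f y ^ 2 / f x ^ 2) := by
  have h1 : f x ^ 2 / f x ^ 2 = 1 := div_self (pow_ne_zero 2 h0)
  have h2 : ContinuousAt (fun y => csq (f y ^ 2 / f x ^ 2)) x := by
    refine ContinuousAt.comp (g := csq) ?_ ((hf.pow 2).div_const _)
    rw [h1]
    exact H894.continuousAt_csq_one
  refine H888.eq_of_sq hf (continuousAt_const.mul h2) ?_ h0 (Eventually.of_forall fun y => ?_)
  · rw [h1, H894.csq_one, mul_one]
  · rw [mul_pow, H724.csq_sq, mul_div_cancel₀ _ (pow_ne_zero 2 h0)]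

theorem sg_neck (D : UD) (q : MU D.R) {j : L} {k : Fin 3} (hj : D.R.pl j = Sum.inl k) :
    D.sg q j = D.G j k q (posU D.R q j) * (D.X q k j - D.Y q k j) / 2 := by
  unfold UD.sg
  rw [hj]
  rfl

theorem sg_core (D : UD) (q : MU D.R) {j : L} {s : Bool} (hj : D.R.pl j = Sum.inr s) :
    D.sg q j = D.g j * csq (pol (D.S j) (aU D.R q) (posU D.R q j) /
      pol (D.S j) (aU D.R D.c) (posU D.R D.c j)) := by
  unfold UD.sg
  rw [hj]
  rfl

/-- The sheets of the chart are the sheets of the region near the base point. -/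
theorem sg_near (hS : Far R S) (h : p ∈ R.dom S) :
    ∀ᶠ q in 𝓝 p, (DB R S p).sg (q, ctr) = R.sht S q := by
  have key : ∀ j, ∀ᶠ q in 𝓝 p, (DB R S p).sg (q, ctr) j = R.sht S q j := by
    intro j
    rcases hj : R.pl j with k | s
    · have hc : ContinuousAt (fun q => gk (R.eps q) k (R.pos q j)) p :=
        (H724.an_gk k (H724.an_pos j) (H724.neck_cond h hj)).continuousAt
      filter_upwards [branch hc (H724.gk_pos_ne h hj), H724.P_open.mem_nhds h] with q h1 h2
      rw [sg_neck (DB R S p) (q, ctr) hj, H724.sht_neck q hj, h1, gk_QU h hj, gk_QU h2 hj]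
      unfold UD.G
      simp only [posU_th, gB_neck hj]
      rfl
    · filter_upwards [branch (H724.an_sht h j).continuousAt (H724.sht_core_ne h hj),
        H724.P_open.mem_nhds h] with q h1 h2
      rw [sg_core (DB R S p) (q, ctr) hj, h1, H724.P_sq hS h j, H724.P_sq hS h2 j]
      simp only [posU_th, aU_th, gB_core hj]
  filter_upwards [eventually_all.2 key] with q hq
  exact funext hq

theorem sg_base (hS : Far R S) (h : p ∈ R.dom S) : (DB R S p).sg (p, ctr) = R.sht S p :=
  (sg_near hS h).self_of_nhds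

theorem pos_node {j : L} {k : Fin 3} (hj : R.pl j = Sum.inl k) (hX : R.XX p k (R.rk j) = 0)
    (hY : R.YY p k (R.rk j) = 0) : R.pos p j = ctr k := by
  rw [H724.pos_neck p hj, hX, hY]
  simp

/-- The conditions at the base point. -/
theorem ok (hS : Far R S) (h : p ∈ R.dom S) : (DB R S p).OK where
  far := hS
  cop k l hkl x hx :=
    H375.qd_ne (H724.dom_eps h) hkl (sub_eq_zero.2 hx.1) (sub_eq_zero.2 hx.2)
  g0 j := gB_ne h j
  gn j k hj := by
    simp only [posU_th, gB_neck hj]
    exact gk_QU h hj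
  gc j s hj := by
    simp only [posU_th, aU_th, gB_core hj]
    exact H724.P_sq hS h j
  gs i j k hi hj := by
    change gB R S p i = gB R S p j
    rw [gB_neck hi.1, gB_neck hj.1, pos_node hi.1 hi.2.1 hi.2.2, pos_node hj.1 hj.2.1 hj.2.2]
  sep i j hij ht e := by
    have e' : Same (S i) (R.pos p i) (R.sht S p i) (S j) (R.pos p j) (R.sht S p j) := by
      rw [← sg_base hS h, ← posU_th p]
      exact e
    obtain ⟨k, -, hj, hX, hY⟩ := H724.same_type hS h hij ht e'
    exact ⟨k, H724.same_node hS h hj hX hY e', hj, hX, hY⟩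
  mu1 i j k hi hj ht hr := H724.mu_ne_one h hi.1 hj.1 ht hr

theorem dist_of_gn {e : E} {v : L → ℂ} (h : Gn S e v) : Dist S e v := by
  refine ⟨h.2.1, fun i j hij e1 => h.2.2.2 i j hij ?_⟩
  unfold Same at e1
  unfold xx
  by_cases hs : S i = S j
  · rw [if_pos hs] at e1
    rw [hs, e1.1]
  · rw [if_neg hs] at e1
    rcases hi : S i with _ | _ <;> rcases hj : S j with _ | _
    · exact absurd (hi.trans hj.symm) hs
    · simp only [Bool.false_eq_true, if_false, if_true]
      exact eq_inv_of_mul_eq_one_left e1.1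
    · simp only [Bool.false_eq_true, if_false, if_true]
      exact (eq_inv_of_mul_eq_one_right e1.1).symm
    · exact absurd (hi.trans hj.symm) hs

theorem gn_of_gen (hS : Far R S) (h : p ∈ R.dom S) (hg : p ∈ H375.Gen R S) :
    Gn S (R.psi p) (R.sht S p) := by
  have h1 := H375.dom_subset R S h
  refine ⟨fun x hx => H375.sx1_ne (H724.dom_eps h) (H375.gen_eps R hg) hx,
    H375.onC R hS h1 (H375.gen_isStd R hg h1), H375.gen_pos R hg, fun i j hij e => ?_⟩
  change xx (S i) (R.pos p i) = xx (S j) (R.pos p j) at e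
  unfold xx at e
  by_cases hs : S i = S j
  · refine H375.gen_ne R hg hij hs ?_
    rw [hs] at e
    split_ifs at e
    · exact inv_injective e
    · exact e
  · refine H375.gen_mul_ne R hg hs ?_
    rcases hi : S i with _ | _ <;> rcases hj : S j with _ | _
    · exact absurd (hi.trans hj.symm) hs
    · simp only [hi, hj, Bool.false_eq_true, if_false, if_true] at e
      rw [e, inv_mul_cancel₀ (H375.gen_pos R hg j)]
    · simp only [hi, hj, Bool.false_eq_true, if_false, if_true] at e
      rw [← e, mul_inv_cancel₀ (H375.gen_pos R hg i)]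
    · exact absurd (hi.trans hj.symm) hs

theorem dense (hS : Far R S) :
    R.dom S ⊆ closure {p | p ∈ R.dom S ∧ Gn S (R.psi p) (R.sht S p)} :=
  (H375.dense_gen R hS H724.P_open).2.trans
    (closure_mono fun _ hq => ⟨hq.1, gn_of_gen hS hq.1 hq.2⟩)

theorem contDiff_th (R : Region) : ContDiff ℝ ∞ fun q : R.Sp => ((q, ctr) : MU R) :=
  contDiff_id.prodMk contDiff_const

/-- The extension is the restriction of the extension of the chart. -/
theorem eR_near (hS : Far R S) (h : p ∈ R.dom S) {O : Set (MU R)} (hO : (p, ctr) ∈ O)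
    (hE : IsExt S (psiU R) (DB R S p).sg O (DB R S p).eU) :
    ∀ᶠ q in 𝓝 p, eR R S q = (DB R S p).eU (q, ctr) := by
  have hc : Continuous fun q : R.Sp => ((q, ctr) : MU R) := (contDiff_th R).continuous
  have h1 : ∀ᶠ q in 𝓝 p, ((q, ctr) : MU R) ∈ O := (hE.opn.preimage hc).mem_nhds hO
  filter_upwards [H724.P_open.mem_nhds h, (h1.and (sg_near hS h)).eventually_nhds] with q h2 h3
  have h4 : ContinuousAt (fun r : R.Sp => (DB R S p).eU (r, ctr)) q :=
    ContinuousAt.comp (g := (DB R S p).eU)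
      (hE.sm.continuousOn.continuousAt (hE.opn.mem_nhds h3.self_of_nhds.1)) hc.continuousAt
  refine H888.extend_eq (dense hS h2) h4 ?_
  filter_upwards [mem_nhdsWithin_of_mem_nhds h3, self_mem_nhdsWithin] with r h5 h6
  have h7 := hE.eq (r, ctr) h5.1
  rw [psiU_th, h5.2] at h7
  exact h7 (dist_of_gn h6.2)

theorem eR_base (hU : UCH) (hS : Far R S) (h : p ∈ R.dom S) :
    eR R S p = (DB R S p).eU (p, ctr) := by
  obtain ⟨O, h1, h2, -⟩ := hU _ (ok hS h)
  exact (eR_near hS h h1 h2).self_of_nhds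

/-- **PR**. -/
theorem pr (hU : UCH) : PR := by
  intro R S hS
  refine ⟨⟨H724.P_open, fun p h => ?_, fun p h => ?_, fun p h j => ?_, fun p h hd => ?_,
    (dense hS).trans (closure_mono fun _ hq => hq.2)⟩, fun p h => ?_⟩
  · obtain ⟨O, h1, h2, -⟩ := hU _ (ok hS h)
    have h3 : ContDiffAt ℝ ∞ (fun r : R.Sp => (DB R S p).eU (r, ctr)) p :=
      ContDiffAt.comp (g := (DB R S p).eU) p (h2.sm.contDiffAt (h2.opn.mem_nhds h1))
        (contDiff_th R).contDiffAt
    exact (h3.congr_of_eventuallyEq (eR_near hS h h1 h2)).contDiffWithinAt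
  · rw [eR_base hU hS h]
    rfl
  · rw [eR_base hU hS h]
    change pt4 (S j) (posU R (p, ctr) j) ((DB R S p).sg (p, ctr) j) = _
    rw [posU_th, sg_base hS h]
    rfl
  · obtain ⟨O, h1, h2, -⟩ := hU _ (ok hS h)
    have h3 := h2.eq (p, ctr) h1
    rw [psiU_th, sg_base hS h] at h3
    rw [eR_base hU hS h]
    exact h3 hd
  · obtain ⟨O, h1, -, h2⟩ := hU _ (ok hS h)
    rw [eR_base hU hS h]
    exact h2 h1

theorem uw_base (h : p ∈ R.dom S) {i j : L} {k : Fin 3} (hi : (DB R S p).At i k)
    (hj : (DB R S p).At j k) : (DB R S p).uw (p, ctr) k i j =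
      (gk (R.eps p) k (ctr k) * (1 + H724.mu R p i j), 1 - H724.mu R p i j) := by
  have h1 : (DB R S p).G i k (p, ctr) (posU R (p, ctr) i) = gk (R.eps p) k (ctr k) := by
    have h2 : QU R (p, ctr) k (posU R (p, ctr) i) ≠ 0 := by
      rw [posU_th, ← gk_QU h hi.1]
      exact pow_ne_zero 2 (H724.gk_pos_ne h hi.1)
    change gB R S p i * csq (QU R (p, ctr) k (posU R (p, ctr) i) /
      QU R (p, ctr) k (posU R (p, ctr) i)) = _
    rw [div_self h2, H894.csq_one, mul_one, gB_neck hi.1, pos_node hi.1 hi.2.1 hi.2.2]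
  have h3 : (DB R S p).X (p, ctr) k j = 0 := hj.2.1
  have h4 : (DB R S p).Y (p, ctr) k j = 0 := hj.2.2
  unfold UD.uw
  rw [h1, h3, h4]
  simp

/-- **PV**. -/
theorem pv (hU : UCH) : PV := by
  intro R S hS p h i j
  rw [eR_base hU hS h]
  refine ⟨fun hn => ?_, fun k hi hj hr hX hY => ?_⟩
  · have h1 : ¬ (i ≠ j ∧ ∃ k, (DB R S p).At i k ∧ (DB R S p).At j k) := by
      rintro ⟨h2, k, h3, h4⟩
      rcases hn with hn | hn
      · exact hn ⟨k, h3.1, h4.1, h3.2.1, h3.2.2, h4.2.1, h4.2.2⟩
      · exact h2 hn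
    unfold UD.eU
    simp only []
    rw [dif_neg h1, psiU_th, sg_base hS h]
  · have ai : (DB R S p).At i k := ⟨hi, hX, by
      change R.YY p k (R.rk i) = 0
      rw [H724.YY_mu p hi hr.le, hY, mul_zero]⟩
    have aj : (DB R S p).At j k := ⟨hj, by
      change R.XX p k (R.rk j) = 0
      rw [H724.XX_mu p hi hr.le, hX, mul_zero], hY⟩
    have hij : i ≠ j := fun e => by
      rw [e] at hr
      exact lt_irrefl _ hr
    have h1 : i ≠ j ∧ ∃ k, (DB R S p).At i k ∧ (DB R S p).At j k := ⟨hij, k, ai, aj⟩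
    have h2 : j ≠ i ∧ ∃ k, (DB R S p).At j k ∧ (DB R S p).At i k := ⟨hij.symm, k, aj, ai⟩
    have e1 : h1.2.choose = k := Sum.inl_injective (h1.2.choose_spec.1.1.symm.trans hi)
    have e2 : h2.2.choose = k := Sum.inl_injective (h2.2.choose_spec.1.1.symm.trans hj)
    unfold UD.eU
    simp only []
    rw [dif_pos h1, dif_pos h2, if_pos hr, if_neg hr.not_gt, e1, e2, uw_base h ai aj, psiU_th,
      sg_base hS h]
    exact ⟨rfl, rfl⟩

end Vale.Agent.P273SR

end
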