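import Vale.Agent.P273SG.Gen

/-!
# P273S, row UCH: the values of the extension near the base point of a chart are in `WW`
-/

noncomputable section

namespace Vale.Agent.P273SR

open Set Filter Topology Vale.Agent.P273 H95 Vale.Agent.P273SW Vale.Agent.P273SG
open Vale.Agent.P273.H888 (Real Dist Far)
open scoped ContDiff

theorem finrank_MU (R : Region) : Module.finrank ℂ (Fin 20 → ℂ) = Module.finrank ℂ (MU R) := by
  rw [Module.finrank_prod, ← (H680.k17 R).toLinearEquiv.finrank_eq]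
  simp

/-- Data with the same points as generic data have distinct marks. -/
theorem dist_of_same {S S' : L → Bool} {e e' : E} {v v' : L → ℂ} (h : Gn S' e' v')
    (hq : ∀ j, v j ^ 2 = pol (S j) e.1 (e.2 j))
    (hs : ∀ j, Same (S j) (e.2 j) (v j) (S' j) (e'.2 j) (v' j)) : Dist S e v := by
  refine ⟨fun j => ⟨hq j, H888.same_ne (pt4_eq_iff.1 (pt4_eq_iff.2 (hs j)).symm) (h.2.1 j).2⟩,
    fun i j hij e1 => (Gn.dist h).2 i j hij (pt4_eq_iff.1 ?_)⟩
  rw [← pt4_eq_iff.2 (hs i), ← pt4_eq_iff.2 (hs j)]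
  exact pt4_eq_iff.2 e1

/-- **UCH**. -/
theorem uch (hE : EGS) (hR : UREAL) (hX : UEXT) (hI : UINV) : UCH := by
  intro D hD
  obtain ⟨O, hc, hO⟩ := hX D hD
  let k : (Fin 20 → ℂ) ≃L[ℂ] MU D.R := ContinuousLinearEquiv.ofFinrankEq (finrank_MU D.R)
  obtain ⟨C, hC, hcB⟩ := hR D hD k
  obtain ⟨O', N, lam, h1, h2, h3, h4, h5, h6, h7, h8, h9⟩ := hI D hD (O ∩ k.symm ⁻¹' C.B)
    ((hO.opn.inter hC.open').mem_nhds ⟨hc, hcB⟩)
  have hO' : IsExt D.S (psiU D.R) D.sg O' D.eU := isExt_mono hO h1 fun p hp => (h3 hp).1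
  have hk : ContDiff ℝ ∞ k.toHomeomorph :=
    ((k : (Fin 20 → ℂ) →L[ℂ] MU D.R).contDiff (n := ∞)).restrict_scalars ℝ
  have hch : ∀ w ∈ N, HasChart w := by
    intro w hw
    refine ⟨D.S, fun q => psiU D.R (k q), fun q => D.sg (k q), C, k.toHomeomorph ⁻¹' O',
      fun q => D.eU (k q), N, fun u => k.symm (lam u), ⟨hC.stable, hC.ctr, hC.anz, hC.anv, hC.sq⟩,
      fun b hb => ?_, isExt_homeo hO' k.toHomeomorph hk, h4, hw,
      k.symm.continuous.comp_continuousOn h6, fun u hu => ?_, fun b hb hN => ?_, ?_⟩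
    · have h10 : k.symm (k b) ∈ C.B := (h3 hb).2
      rwa [k.symm_apply_apply] at h10
    · change k (k.symm (lam u)) ∈ O'
      rw [k.apply_symm_apply]
      exact h7 hu
    · change k.symm (lam (D.eU (k b))) = b
      rw [h8 (k b) hb hN, k.symm_apply_apply]
    · rintro u ⟨hu, S, e, v, hg, rfl⟩
      change D.eU (k (k.symm (lam (eG S e v)))) = _
      rw [k.apply_symm_apply]
      obtain ⟨h10, h11⟩ := h9 S e v hg hu
      have h12 := h7 hu
      rw [hO'.eq _ h12 (dist_of_same hg (fun j => hC.sq' (h3 h12).2 j) h11)]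
      exact hE _ _ _ _ _ _ h10 h11
  refine ⟨O' ∩ D.eU ⁻¹' N, ⟨h2, h5⟩, isExt_mono hO'
    (hO'.sm.continuousOn.isOpen_inter_preimage h1 h4) inter_subset_left, fun p hp => ?_⟩
  exact ⟨isExt_closure hO' hp.1, hch _ hp.2⟩

end Vale.Agent.P273SR

end
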